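import Vale.Agent.P092.H111.Prim

/-!
P092 (helper111): a set of finite Lebesgue measure in `M_n(ℝ)` which meets every orbit of
`SL_n(ℤ)` in `{g | 0 < |det g| ≤ 1}`.
-/

namespace Vale.Agent.P092.H111

open Matrix MeasureTheory Set

/-- Coordinates of one row relative to the first row `v` with pivot `i`. -/
noncomputable def rowmap {n : ℕ} (v : Fin (n + 1) → ℝ) (i : Fin (n + 1)) (c : Fin (n + 1) → ℝ) :
    ℝ × (Fin n → ℝ) :=
  ((v i)⁻¹ * c i, |v i| ^ ((n : ℝ)⁻¹) • (fun k : Fin n =>
    c (i.succAbove k) - ((v i)⁻¹ * c i) * v (i.succAbove k)))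

theorem rowmap_mp {n : ℕ} (hn : n ≠ 0) (v : Fin (n + 1) → ℝ) (i : Fin (n + 1)) (hv : v i ≠ 0) :
    MeasurePreserving (rowmap v i) volume volume := by
  have h1 : MeasurePreserving (MeasurableEquiv.piFinSuccAbove (fun _ : Fin (n + 1) => ℝ) i)
    volume volume := volume_preserving_piFinSuccAbove _ i
  have h2 : MeasurePreserving (fun p : ℝ × (Fin n → ℝ) =>
      (p.1, p.2 - ((v i)⁻¹ * p.1) • (fun k : Fin n => v (i.succAbove k)))) volume volume := by
    refine MeasurePreserving.skew_product (μa := (volume : Measure ℝ)) (μb := (volume : Measure ℝ))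
      (μc := (volume : Measure (Fin n → ℝ))) (μd := (volume : Measure (Fin n → ℝ)))
      (f := fun x => x)
      (g := fun (x : ℝ) (y : Fin n → ℝ) => y - ((v i)⁻¹ * x) • (fun k : Fin n => v (i.succAbove k)))
      (MeasurePreserving.id _) ?_ ?_
    · exact Continuous.measurable (by fun_prop)
    · refine Filter.Eventually.of_forall fun x => ?_
      exact (measurePreserving_sub_right volume _).map_eq
  have h3 : MeasurePreserving (fun p : ℝ × (Fin n → ℝ) =>
      ((v i)⁻¹ * p.1, |v i| ^ ((n : ℝ)⁻¹) • p.2)) volume volume := by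
    have hr : |v i| ^ ((n : ℝ)⁻¹) ≠ 0 := (Real.rpow_pos_of_pos (abs_pos.2 hv) _).ne'
    have ha : MeasurePreserving (fun x : ℝ => (v i)⁻¹ * x) volume
        (ENNReal.ofReal |v i| • volume) := by
      refine ⟨measurable_const_mul _, ?_⟩
      rw [Real.map_volume_mul_left (inv_ne_zero hv), inv_inv]
    have hb : MeasurePreserving (fun y : Fin n → ℝ => |v i| ^ ((n : ℝ)⁻¹) • y) volume
        (ENNReal.ofReal |v i|⁻¹ • volume) := by
      refine ⟨measurable_const_smul _, ?_⟩
      rw [Measure.map_addHaar_smul _ hr]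
      congr 2
      rw [Module.finrank_fintype_fun_eq_card, Fintype.card_fin, ← Real.rpow_natCast,
        ← Real.rpow_mul (abs_nonneg _), inv_mul_cancel₀ (by exact_mod_cast hn), Real.rpow_one,
        abs_inv, abs_abs]
    have hc := ha.prod hb
    have hd : (ENNReal.ofReal |v i| • (volume : Measure ℝ)).prod
        (ENNReal.ofReal |v i|⁻¹ • (volume : Measure (Fin n → ℝ))) = volume := by
      rw [Measure.prod_smul_left, Measure.prod_smul_right, smul_smul,
        ← ENNReal.ofReal_mul (abs_nonneg _), mul_inv_cancel₀ (abs_pos.2 hv).ne',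
        ENNReal.ofReal_one, one_smul]
      rfl
    rw [hd] at hc
    exact hc
  exact (h3.comp h2).comp h1

/-- The coordinates of all the other rows. -/
noncomputable def blockmap {n : ℕ} (v : Fin (n + 1) → ℝ) (i : Fin (n + 1))
    (c : Fin n → Fin (n + 1) → ℝ) : (Fin n → ℝ) × (Fin n → Fin n → ℝ) :=
  (fun j => (rowmap v i (c j)).1, fun j => (rowmap v i (c j)).2)

theorem blockmap_mp {n : ℕ} (hn : n ≠ 0) (v : Fin (n + 1) → ℝ) (i : Fin (n + 1)) (hv : v i ≠ 0) :
    MeasurePreserving (blockmap v i) volume volume := by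
  have h1 : MeasurePreserving (fun (c : Fin n → Fin (n + 1) → ℝ) j => rowmap v i (c j))
      volume volume :=
    volume_preserving_pi (fun _ => rowmap_mp hn v i hv)
  have h2 := volume_measurePreserving_arrowProdEquivProdArrow ℝ (Fin n → ℝ) (Fin n)
  exact h2.comp h1

/-- The set of pairs (first row, other rows) in good position. -/
def good {n : ℕ} (F : Set (Fin n → Fin n → ℝ)) (i : Fin (n + 1)) :
    Set ((Fin (n + 1) → ℝ) × (Fin n → Fin (n + 1) → ℝ)) :=
  {p | (p.1 ∈ Set.pi Set.univ (fun _ => Set.Ioo (-2 : ℝ) 2) ∧ p.1 i ≠ 0) ∧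
    blockmap p.1 i p.2 ∈ (Set.pi Set.univ (fun _ : Fin n => Set.Ico (0 : ℝ) 1)) ×ˢ F}

theorem measurable_blockmap {n : ℕ} (i : Fin (n + 1)) :
    Measurable fun p : (Fin (n + 1) → ℝ) × (Fin n → Fin (n + 1) → ℝ) => blockmap p.1 i p.2 := by
  unfold blockmap rowmap
  refine Measurable.prodMk ?_ ?_
  · refine measurable_pi_lambda _ fun j => ?_
    dsimp only
    fun_prop
  · refine measurable_pi_lambda _ fun j => ?_
    dsimp only
    refine measurable_pi_lambda _ fun k => ?_
    simp only [Pi.smul_apply, smul_eq_mul]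
    fun_prop

theorem measurableSet_good {n : ℕ} {F : Set (Fin n → Fin n → ℝ)} (hF : MeasurableSet F)
    (i : Fin (n + 1)) : MeasurableSet (good F i) := by
  refine MeasurableSet.inter (MeasurableSet.inter ?_ ?_) ?_
  · exact measurable_fst (MeasurableSet.univ_pi fun _ => measurableSet_Ioo)
  · have : Measurable fun p : (Fin (n + 1) → ℝ) × (Fin n → Fin (n + 1) → ℝ) => p.1 i := by fun_prop
    exact (this (measurableSet_singleton 0)).compl
  · exact measurable_blockmap i ((MeasurableSet.univ_pi fun _ => measurableSet_Ico).prod hF)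

theorem volume_good {n : ℕ} (hn : n ≠ 0) {F : Set (Fin n → Fin n → ℝ)} (hF : MeasurableSet F)
    (i : Fin (n + 1)) : volume (good F i) ≤ 4 ^ (n + 1) * volume F := by
  have h0 : (volume : Measure ((Fin (n + 1) → ℝ) × (Fin n → Fin (n + 1) → ℝ))) =
    (volume : Measure (Fin (n + 1) → ℝ)).prod volume := rfl
  rw [h0, Measure.prod_apply (measurableSet_good hF i)]
  calc ∫⁻ v, volume (Prod.mk v ⁻¹' good F i) ≤
      ∫⁻ v, (Set.pi Set.univ (fun _ : Fin (n + 1) => Set.Ioo (-2 : ℝ) 2)).indicator
        (fun _ => volume F) v := by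
        refine lintegral_mono fun v => ?_
        by_cases hv : v ∈ Set.pi Set.univ (fun _ : Fin (n + 1) => Set.Ioo (-2 : ℝ) 2) ∧ v i ≠ 0
        · rw [Set.indicator_of_mem hv.1]
          have hsub : Prod.mk v ⁻¹' good F i ⊆ blockmap v i ⁻¹'
              ((Set.pi Set.univ (fun _ : Fin n => Set.Ico (0 : ℝ) 1)) ×ˢ F) := fun c hc => hc.2
          refine (measure_mono hsub).trans ?_
          rw [(blockmap_mp hn v i hv.2).measure_preimage
            ((MeasurableSet.univ_pi fun _ => measurableSet_Ico).prod hF).nullMeasurableSet]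
          have h1 : (volume : Measure ((Fin n → ℝ) × (Fin n → Fin n → ℝ))) =
            (volume : Measure (Fin n → ℝ)).prod volume := rfl
          rw [h1, Measure.prod_prod, Real.volume_pi_Ico]
          simp
        · have : Prod.mk v ⁻¹' good F i = ∅ := by
            ext c
            simp only [good, Set.mem_preimage, Set.mem_setOf_eq, Set.mem_empty_iff_false, iff_false]
            intro h
            exact hv h.1
          rw [this]
          simp
    _ = volume F * volume (Set.pi Set.univ (fun _ : Fin (n + 1) => Set.Ioo (-2 : ℝ) 2)) := by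
        rw [lintegral_indicator_const (MeasurableSet.univ_pi fun _ => measurableSet_Ioo)]
    _ = 4 ^ (n + 1) * volume F := by
        rw [Real.volume_pi_Ioo]
        simp only [Finset.prod_const, Finset.card_univ, Fintype.card_fin]
        rw [mul_comm]
        norm_num

end Vale.Agent.P092.H111
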