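import Vale.Agent.P092.H111.Cover

/-!
P092 (helper111): `SL_n(ℤ)` has finite covolume, in the form: a measurable set of finite Lebesgue
measure meets every orbit of `SL_n(ℤ)` on `{g | 0 < |det g| ≤ 1}`.
-/

namespace Vale.Agent.P092.H111

open Matrix MeasureTheory Set

theorem rowmap_add {n : ℕ} (v : Fin (n + 1) → ℝ) (i : Fin (n + 1)) (hv : v i ≠ 0)
    (w : ℝ) (c : Fin (n + 1) → ℝ) :
    rowmap v i (w • v + c) = (w + (rowmap v i c).1, (rowmap v i c).2) := by
  unfold rowmap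
  refine Prod.ext ?_ ?_
  · simp only [Pi.add_apply, Pi.smul_apply, smul_eq_mul]
    field_simp
  · simp only [Pi.add_apply, Pi.smul_apply, smul_eq_mul]
    congr 1
    funext k
    field_simp
    ring

theorem rowmap_sum {n : ℕ} (v : Fin (n + 1) → ℝ) (i : Fin (n + 1))
    (t : Fin n → ℝ) (c : Fin n → Fin (n + 1) → ℝ) :
    rowmap v i (∑ k, t k • c k) = ∑ k, t k • rowmap v i (c k) := by
  unfold rowmap
  refine Prod.ext ?_ ?_
  · simp only [Prod.fst_sum, Prod.smul_fst, Finset.sum_apply, Pi.smul_apply, smul_eq_mul,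
      Finset.mul_sum]
    refine Finset.sum_congr rfl fun k _ => ?_
    ring
  · simp only [Prod.snd_sum, Prod.smul_snd]
    funext l
    simp only [Finset.sum_apply, Pi.smul_apply, smul_eq_mul, Finset.mul_sum, Finset.sum_mul,
      ← Finset.sum_sub_distrib]
    refine Finset.sum_congr rfl fun k _ => ?_
    ring

/-- The Schur complement. -/
noncomputable def schur {n : ℕ} (g : Matrix (Fin (n + 1)) (Fin (n + 1)) ℝ) (i : Fin (n + 1)) :
    Matrix (Fin n) (Fin n) ℝ := Matrix.of fun j => (rowmap (g 0) i (g j.succ)).2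

theorem abs_det_schur {n : ℕ} (hn : n ≠ 0) (g : Matrix (Fin (n + 1)) (Fin (n + 1)) ℝ)
    (i : Fin (n + 1)) (hi : g 0 i ≠ 0) : |(schur g i).det| = |g.det| := by
  obtain ⟨B, hB⟩ : ∃ B : Matrix (Fin (n + 1)) (Fin (n + 1)) ℝ, B = Matrix.of fun j k =>
      if j = 0 then g 0 k else g j k - ((g 0 i)⁻¹ * g j i) * g 0 k := ⟨_, rfl⟩
  have h1 : g.det = B.det := by
    refine Matrix.det_eq_of_forall_row_eq_smul_add_const
      (fun j => if j = 0 then 0 else (g 0 i)⁻¹ * g j i) 0 (by simp) fun j k => ?_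
    rw [hB]
    by_cases hj : j = 0
    · simp [hj]
    · simp [hj]
  have h2 : B.det = (-1) ^ (i : ℕ) * g 0 i *
      (Matrix.of fun j k : Fin n => g j.succ (i.succAbove k) -
        ((g 0 i)⁻¹ * g j.succ i) * g 0 (i.succAbove k)).det := by
    rw [Matrix.det_succ_column B i, Fin.sum_univ_succ]
    have h3 : ∀ j : Fin n, B j.succ i = 0 := by
      intro j
      rw [hB, Matrix.of_apply, if_neg (Fin.succ_ne_zero j)]
      field_simp
      ring
    have h4 : ∑ j : Fin n, (-1 : ℝ) ^ ((j.succ : ℕ) + (i : ℕ)) * B j.succ i *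
        (B.submatrix j.succ.succAbove i.succAbove).det = 0 := by
      refine Finset.sum_eq_zero fun j _ => ?_
      rw [h3]; ring
    rw [h4, add_zero]
    congr 1
    · rw [hB]; simp
    · congr 1
      ext j k
      rw [hB]
      simp
  have h5 : schur g i = |g 0 i| ^ ((n : ℝ)⁻¹) • (Matrix.of fun j k : Fin n =>
      g j.succ (i.succAbove k) - ((g 0 i)⁻¹ * g j.succ i) * g 0 (i.succAbove k)) := by
    ext j k
    simp [schur, rowmap]
  have h6 : |(|g 0 i| ^ ((n : ℝ)⁻¹)) ^ n| = |g 0 i| := by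
    rw [← Real.rpow_natCast, ← Real.rpow_mul (abs_nonneg _),
      inv_mul_cancel₀ (by exact_mod_cast hn), Real.rpow_one, abs_abs]
  have h7 : |(-1 : ℝ) ^ (i : ℕ)| = 1 := by rw [abs_pow, abs_neg, abs_one, one_pow]
  rw [h1, h2, h5, Matrix.det_smul, Fintype.card_fin, abs_mul, h6, abs_mul, abs_mul, h7, one_mul]

/-- The embedding of the parabolic subgroup. -/
def par {n : ℕ} (w : Fin n → ℤ) (γ : SpecialLinearGroup (Fin n) ℤ) :
    SpecialLinearGroup (Fin (n + 1)) ℤ :=
  ⟨Matrix.of (Fin.cons (Fin.cons 1 0) fun j => Fin.cons (w j) ((γ : Matrix (Fin n) (Fin n) ℤ) j)), by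
    rw [Matrix.det_succ_row_zero, Fin.sum_univ_succ]
    simp only [Matrix.of_apply, Fin.cons_zero, Fin.cons_succ, Pi.zero_apply, mul_zero, zero_mul,
      Finset.sum_const_zero, add_zero, Fin.val_zero, pow_zero, one_mul]
    have : (Matrix.of (Fin.cons (Fin.cons 1 0) fun j =>
        (Fin.cons (w j) ((γ : Matrix (Fin n) (Fin n) ℤ) j) : Fin (n + 1) → ℤ)) :
        Matrix (Fin (n + 1)) (Fin (n + 1)) ℤ).submatrix Fin.succ (Fin.succAbove 0) =
        (γ : Matrix (Fin n) (Fin n) ℤ) := by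
      ext j k
      simp
    rw [this, γ.2]⟩

theorem par_00 {n : ℕ} (w : Fin n → ℤ) (γ : SpecialLinearGroup (Fin n) ℤ) :
    (par w γ : Matrix (Fin (n + 1)) (Fin (n + 1)) ℤ) 0 0 = 1 := rfl

theorem par_0s {n : ℕ} (w : Fin n → ℤ) (γ : SpecialLinearGroup (Fin n) ℤ) (k : Fin n) :
    (par w γ : Matrix (Fin (n + 1)) (Fin (n + 1)) ℤ) 0 k.succ = 0 := rfl

theorem par_s0 {n : ℕ} (w : Fin n → ℤ) (γ : SpecialLinearGroup (Fin n) ℤ) (k : Fin n) :
    (par w γ : Matrix (Fin (n + 1)) (Fin (n + 1)) ℤ) k.succ 0 = w k := rfl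

theorem par_ss {n : ℕ} (w : Fin n → ℤ) (γ : SpecialLinearGroup (Fin n) ℤ) (j k : Fin n) :
    (par w γ : Matrix (Fin (n + 1)) (Fin (n + 1)) ℤ) j.succ k.succ =
      (γ : Matrix (Fin n) (Fin n) ℤ) j k := rfl

theorem par_zero {n : ℕ} (w : Fin n → ℤ) (γ : SpecialLinearGroup (Fin n) ℤ)
    (g : Matrix (Fin (n + 1)) (Fin (n + 1)) ℝ) : (rm (par w γ) * g) 0 = g 0 := by
  funext k
  rw [Matrix.mul_apply, Fin.sum_univ_succ]
  simp only [rm_apply, par_00, par_0s, Int.cast_one, Int.cast_zero, one_mul, zero_mul,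
    Finset.sum_const_zero, add_zero]

theorem par_succ {n : ℕ} (w : Fin n → ℤ) (γ : SpecialLinearGroup (Fin n) ℤ)
    (g : Matrix (Fin (n + 1)) (Fin (n + 1)) ℝ) (j : Fin n) :
    (rm (par w γ) * g) j.succ = (w j : ℝ) • g 0 + ∑ k, (rm γ j k) • g k.succ := by
  funext l
  rw [Matrix.mul_apply, Fin.sum_univ_succ]
  simp only [rm_apply, par_s0, par_ss, Pi.add_apply, Pi.smul_apply, Finset.sum_apply, smul_eq_mul]

/-- **`SL_n(ℤ)` has finite covolume** (Lebesgue measure form). -/
theorem cover (n : ℕ) : ∃ F : Set (Fin n → Fin n → ℝ), MeasurableSet F ∧ volume F < ⊤ ∧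
    ∀ g : Matrix (Fin n) (Fin n) ℝ, g.det ≠ 0 → |g.det| ≤ 1 →
      ∃ γ : SpecialLinearGroup (Fin n) ℤ, (fun i j => (rm γ * g) i j) ∈ F := by
  induction n with
  | zero =>
    refine ⟨Set.univ, MeasurableSet.univ, ?_, fun g _ _ => ⟨1, Set.mem_univ _⟩⟩
    rw [volume_pi, Measure.pi_univ]
    simp
  | succ n ih =>
    rcases Nat.eq_zero_or_pos n with rfl | hn
    · refine ⟨Set.pi Set.univ fun _ => Set.pi Set.univ fun _ => Set.Icc (-1) 1,
        MeasurableSet.univ_pi fun _ => MeasurableSet.univ_pi fun _ => measurableSet_Icc, ?_,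
        fun g _ h1 => ⟨1, ?_⟩⟩
      · simp only [volume_pi_pi, Real.volume_Icc]
        simp
      · intro i _ j _
        have h2 : g.det = g 0 0 := by simp
        rw [h2] at h1
        have hi : i = 0 := Fin.ext (by omega)
        have hj : j = 0 := Fin.ext (by omega)
        subst hi; subst hj
        simpa [rm_one, Set.mem_Icc, abs_le] using h1
    · obtain ⟨F, hF, hFv, hcov⟩ := ih
      let e := MeasurableEquiv.piFinSuccAbove (fun _ : Fin (n + 1) => (Fin (n + 1) → ℝ)) 0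
      have he : MeasurePreserving e volume volume := volume_preserving_piFinSuccAbove _ 0
      refine ⟨⋃ i, e ⁻¹' good F i, MeasurableSet.iUnion fun i =>
        e.measurable (measurableSet_good hF i), ?_, ?_⟩
      · refine lt_of_le_of_lt (measure_iUnion_fintype_le _ _) ?_
        refine ENNReal.sum_lt_top.2 fun i _ => ?_
        rw [he.measure_preimage (measurableSet_good hF i).nullMeasurableSet]
        refine lt_of_le_of_lt (volume_good hn.ne' hF i) ?_
        exact ENNReal.mul_lt_top (by norm_num [ENNReal.pow_lt_top]) hFv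
      · intro g h0 h1
        obtain ⟨γ₁, hγ₁⟩ := short_row g h0 h1
        obtain ⟨g₁, hg₁⟩ : ∃ g₁, g₁ = rm γ₁ * g := ⟨_, rfl⟩
        have hdet : g₁.det = g.det := by rw [hg₁, Matrix.det_mul, det_rm, one_mul]
        obtain ⟨i, hi⟩ : ∃ i, g₁ 0 i ≠ 0 := by
          by_contra h
          push Not at h
          exact h0 (hdet ▸ Matrix.det_eq_zero_of_row_eq_zero 0 h)
        have hs := abs_det_schur hn.ne' g₁ i hi
        rw [hdet] at hs
        obtain ⟨γ₂, hγ₂⟩ := hcov (schur g₁ i) (by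
          intro h; rw [h, abs_zero] at hs; exact h0 (abs_eq_zero.1 hs.symm)) (by rw [hs]; exact h1)
        let w : Fin n → ℤ := fun j => -⌊(rowmap (g₁ 0) i (∑ k, (rm γ₂ j k) • g₁ k.succ)).1⌋
        refine ⟨par w γ₂ * γ₁, ?_⟩
        rw [rm_mul, Matrix.mul_assoc, ← hg₁]
        refine Set.mem_iUnion.2 ⟨i, ?_⟩
        have he1 : e (fun i j => (rm (par w γ₂) * g₁) i j) =
          (g₁ 0, fun j => (w j : ℝ) • g₁ 0 + ∑ k, (rm γ₂ j k) • g₁ k.succ) := by
          refine Prod.ext ?_ ?_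
          · exact par_zero w γ₂ g₁
          · funext j
            exact par_succ w γ₂ g₁ j
        show e _ ∈ good F i
        rw [he1]
        refine ⟨⟨fun k _ => ?_, hi⟩, ?_, ?_⟩
        · have := hγ₁ k
          rw [← hg₁, abs_lt] at this
          exact this
        · intro j _
          show (rowmap (g₁ 0) i ((w j : ℝ) • g₁ 0 + ∑ k, (rm γ₂ j k) • g₁ k.succ)).1 ∈ _
          rw [rowmap_add _ _ hi]
          simp only [w, Int.cast_neg]
          rw [neg_add_eq_sub, Int.self_sub_floor]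
          exact ⟨Int.fract_nonneg _, Int.fract_lt_one _⟩
        · have h3 : (blockmap (g₁ 0) i fun j => (w j : ℝ) • g₁ 0 + ∑ k, (rm γ₂ j k) • g₁ k.succ).2 =
              fun i_1 j => (rm γ₂ * schur g₁ i) i_1 j := by
            funext j
            show (rowmap (g₁ 0) i ((w j : ℝ) • g₁ 0 + ∑ k, (rm γ₂ j k) • g₁ k.succ)).2 = _
            rw [rowmap_add _ _ hi, rowmap_sum]
            simp only [Prod.snd_sum, Prod.smul_snd]
            funext l
            rw [Finset.sum_apply, Matrix.mul_apply]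
            rfl
          rw [h3]
          exact hγ₂

end Vale.Agent.P092.H111
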