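import Vale.Agent.P092.H111.Cover2

/-!
P092 (helper111): `SL_n(ℤ)` has finite covolume, right multiplication form.
-/

namespace Vale.Agent.P092.H111

open Matrix MeasureTheory Set

/-- Transposition preserves Lebesgue measure on `M_n(ℝ)`. -/
theorem measurePreserving_swap (n : ℕ) :
    MeasurePreserving (fun (g : Fin n → Fin n → ℝ) i j => g j i) volume volume := by
  have hm : Measurable (fun (g : Fin n → Fin n → ℝ) i j => g j i) := by
    refine measurable_pi_lambda _ fun i => measurable_pi_lambda _ fun j => ?_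
    fun_prop
  refine ⟨hm, ?_⟩
  have hL : ∀ (ν : Measure (Fin n → Fin n → ℝ)), (∀ s : Fin n → Fin n → Set ℝ,
      (∀ i j, MeasurableSet (s i j)) → ν (Set.pi univ fun i => Set.pi univ (s i)) =
        ∏ i, ∏ j, volume (s i j)) → ν = volume := by
    intro ν hν
    refine (Measure.pi_eq_generateFrom (C := fun _ : Fin n =>
      Set.pi univ '' Set.pi univ fun _ : Fin n => {s : Set ℝ | MeasurableSet s})
      (fun _ => generateFrom_pi) (fun _ => isPiSystem_pi)
      (fun _ => Measure.FiniteSpanningSetsIn.pi fun _ =>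
        (volume : Measure ℝ).toFiniteSpanningSetsIn) ?_).symm
    intro s hs
    choose t ht hts using hs
    have h1 : s = fun i => Set.pi univ (t i) := funext fun i => (hts i).symm
    rw [h1, hν t fun i j => ht i j (mem_univ _)]
    refine Finset.prod_congr rfl fun i _ => ?_
    exact (Measure.pi_pi _ _).symm
  refine hL _ fun s hs => ?_
  rw [Measure.map_apply hm (MeasurableSet.univ_pi fun i => MeasurableSet.univ_pi (hs i))]
  have h2 : (fun (g : Fin n → Fin n → ℝ) i j => g j i) ⁻¹' (Set.pi univ fun i => Set.pi univ (s i)) =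
      Set.pi univ fun j => Set.pi univ fun i => s i j := by
    ext g
    simp only [Set.mem_preimage, Set.mem_pi, Set.mem_univ, true_implies]
    exact ⟨fun h j i => h i j, fun h i j => h j i⟩
  rw [h2, volume_pi_pi]
  simp_rw [volume_pi_pi]
  exact Finset.prod_comm

/-- **`SL_n(ℤ)` has finite covolume** (right multiplication). -/
theorem fund (n : ℕ) : ∃ F : Set (Fin n → Fin n → ℝ), MeasurableSet F ∧ volume F < ⊤ ∧
    ∀ g : Matrix (Fin n) (Fin n) ℝ, 0 < g.det → g.det ≤ 1 →
      ∃ γ : SpecialLinearGroup (Fin n) ℤ,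
        (g * (γ : Matrix (Fin n) (Fin n) ℤ).map (Int.cast) : Matrix (Fin n) (Fin n) ℝ) ∈ F := by
  obtain ⟨F, hF, hFv, hcov⟩ := cover n
  have hT := measurePreserving_swap n
  refine ⟨(fun (g : Fin n → Fin n → ℝ) i j => g j i) ⁻¹' F, hT.measurable hF, ?_, ?_⟩
  · rw [hT.measure_preimage hF.nullMeasurableSet]
    exact hFv
  · intro g h0 h1
    obtain ⟨γ, hγ⟩ := hcov gᵀ (by rw [Matrix.det_transpose]; exact h0.ne')
      (by rw [Matrix.det_transpose, abs_of_pos h0]; exact h1)
    refine ⟨γ.transpose, ?_⟩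
    have h3 : (fun i j => (g * ((γ.transpose : SpecialLinearGroup (Fin n) ℤ) :
        Matrix (Fin n) (Fin n) ℤ).map (Int.cast) : Matrix (Fin n) (Fin n) ℝ) j i) =
        fun i j => (rm γ * gᵀ) i j := by
      funext i j
      rw [Matrix.mul_apply, Matrix.mul_apply]
      refine Finset.sum_congr rfl fun k _ => ?_
      simp [mul_comm]
    show (fun i j => (g * ((γ.transpose : SpecialLinearGroup (Fin n) ℤ) :
        Matrix (Fin n) (Fin n) ℤ).map (Int.cast) : Matrix (Fin n) (Fin n) ℝ) j i) ∈ F
    rw [h3]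
    exact hγ

end Vale.Agent.P092.H111
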