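import Mathlib

/-!
P092 (helper111): every nonzero integral vector is an integral multiple of the first row of a
matrix in `SL_n(ℤ)`; Minkowski's theorem for the rows of a real matrix.
-/

namespace Vale.Agent.P092.H111

open Matrix MeasureTheory Set

/-- An element of `SL_n(ℤ)` as a real matrix. -/
def rm {n : ℕ} (γ : SpecialLinearGroup (Fin n) ℤ) : Matrix (Fin n) (Fin n) ℝ :=
  (γ : Matrix (Fin n) (Fin n) ℤ).map (Int.cast : ℤ → ℝ)

@[simp] theorem rm_apply {n : ℕ} (γ : SpecialLinearGroup (Fin n) ℤ) (i j : Fin n) :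
    rm γ i j = ((γ : Matrix (Fin n) (Fin n) ℤ) i j : ℝ) := rfl

@[simp] theorem rm_one {n : ℕ} : rm (1 : SpecialLinearGroup (Fin n) ℤ) = 1 := by
  ext i j
  simp [Matrix.one_apply]

theorem rm_mul {n : ℕ} (γ δ : SpecialLinearGroup (Fin n) ℤ) : rm (γ * δ) = rm γ * rm δ := by
  ext i j
  simp [Matrix.mul_apply]

@[simp] theorem det_rm {n : ℕ} (γ : SpecialLinearGroup (Fin n) ℤ) : (rm γ).det = 1 := by
  have h := (Int.castRingHom ℝ).map_det (γ : Matrix (Fin n) (Fin n) ℤ)
  rw [γ.2, map_one] at h
  exact h.symm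

/-- The transvection as an element of `SL`. -/
def tv {n : ℕ} (i j : Fin n) (h : i ≠ j) (c : ℤ) : SpecialLinearGroup (Fin n) ℤ :=
  ⟨Matrix.transvection i j c, by rw [Matrix.det_transvection_of_ne i j h]⟩

theorem vecMul_tv {n : ℕ} (i j : Fin n) (h : i ≠ j) (c : ℤ) (z : Fin n → ℤ) :
    z ᵥ* (tv i j h c : Matrix (Fin n) (Fin n) ℤ) = Function.update z j (z j + z i * c) := by
  funext k
  simp only [tv, Matrix.transvection, Matrix.vecMul_add, Matrix.vecMul_one, Pi.add_apply]
  by_cases hk : k = j
  · subst hk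
    rw [Function.update_self]
    congr 1
    simp [Matrix.vecMul, dotProduct, Matrix.single_apply]
  · rw [Function.update_of_ne hk]
    have : (z ᵥ* Matrix.single i j c) k = 0 := by
      simp [Matrix.vecMul, dotProduct, Matrix.single_apply, Ne.symm hk]
    rw [this, add_zero]

theorem exists_row {n : ℕ} (N : ℕ) : ∀ z : Fin (n + 1) → ℤ, ∑ k, (z k).natAbs = N → z ≠ 0 →
    ∃ (γ : SpecialLinearGroup (Fin (n + 1)) ℤ) (d : ℤ), d ≠ 0 ∧
      z = d • (γ : Matrix (Fin (n + 1)) (Fin (n + 1)) ℤ) 0 := by
  induction N using Nat.strong_induction_on with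
  | _ N ih =>
    intro z hN hz
    by_cases h2 : ∃ i j, i ≠ j ∧ z i ≠ 0 ∧ z j ≠ 0 ∧ (z j).natAbs ≤ (z i).natAbs
    · obtain ⟨i, j, hij, hi, hj, hle⟩ := h2
      -- choose the sign
      obtain ⟨c, hc⟩ : ∃ c : ℤ, (z i + z j * c).natAbs < (z i).natAbs := by
        rcases lt_or_gt_of_ne hi with h1 | h1 <;> rcases lt_or_gt_of_ne hj with h3 | h3
        · exact ⟨-1, by omega⟩
        · exact ⟨1, by omega⟩
        · exact ⟨1, by omega⟩
        · exact ⟨-1, by omega⟩
      let z' : Fin (n + 1) → ℤ := Function.update z i (z i + z j * c)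
      have hz' : z' = z ᵥ* (tv j i hij.symm c : Matrix _ _ ℤ) := (vecMul_tv j i hij.symm c z).symm
      have hzz : z = z' ᵥ* (tv j i hij.symm (-c) : Matrix _ _ ℤ) := by
        rw [vecMul_tv]
        funext k
        by_cases hk : k = i
        · subst hk
          rw [Function.update_self]
          simp [z', Function.update_of_ne hij.symm]
        · rw [Function.update_of_ne hk]
          simp [z', Function.update_of_ne hk]
      have hz'0 : z' ≠ 0 := by
        intro h0
        apply hz
        rw [hzz, h0, Matrix.zero_vecMul]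
      have hlt : ∑ k, (z' k).natAbs < N := by
        rw [← hN]
        refine Finset.sum_lt_sum (fun k _ => ?_) ⟨i, Finset.mem_univ _, ?_⟩
        · by_cases hk : k = i
          · subst hk; simp only [z', Function.update_self]; exact hc.le
          · simp [z', Function.update_of_ne hk]
        · simp only [z', Function.update_self]; exact hc
      obtain ⟨γ, d, hd, hγ⟩ := ih _ hlt z' rfl hz'0
      refine ⟨γ * tv j i hij.symm (-c), d, hd, ?_⟩
      rw [hzz, hγ, Matrix.smul_vecMul]
      rfl
    · push Not at h2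
      obtain ⟨k, hk⟩ : ∃ k, z k ≠ 0 := by
        by_contra h
        push Not at h
        exact hz (funext h)
      have hall : ∀ l, l ≠ k → z l = 0 := by
        intro l hl
        by_contra hzl
        have h3 := h2 l k hl hzl hk
        have h4 := h2 k l hl.symm hk hzl
        omega
      by_cases hk0 : k = 0
      · subst hk0
        refine ⟨1, z 0, hk, ?_⟩
        funext l
        by_cases hl : l = 0
        · subst hl; simp
        · rw [hall l hl]
          simp [Matrix.one_apply_ne (Ne.symm hl)]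
      · refine ⟨tv 0 k (Ne.symm hk0) 1 * tv k 0 hk0 (-1), z k, hk, ?_⟩
        have h1 : (↑(tv 0 k (Ne.symm hk0) 1 * tv k 0 hk0 (-1)) : Matrix (Fin (n+1)) (Fin (n+1)) ℤ) 0
            = ((tv 0 k (Ne.symm hk0) 1 : Matrix (Fin (n+1)) (Fin (n+1)) ℤ) 0) ᵥ*
              (tv k 0 hk0 (-1) : Matrix (Fin (n+1)) (Fin (n+1)) ℤ) := rfl
        rw [h1, vecMul_tv]
        funext l
        by_cases hl : l = k
        · subst hl
          simp [Function.update_of_ne hk0, tv, Matrix.transvection, Matrix.single_apply,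
            Matrix.one_apply, Ne.symm hk0]
        · rw [hall l hl]
          by_cases hl0 : l = 0
          · subst hl0
            simp [tv, Matrix.transvection, Matrix.single_apply, Matrix.one_apply, Ne.symm hk0, hk0]
          · simp [Function.update_of_ne hl0, tv, Matrix.transvection, Matrix.single_apply,
              Matrix.one_apply, Ne.symm hl0, Ne.symm hl]

/-- Minkowski: the lattice spanned by the rows of a matrix of determinant at most one contains a
nonzero vector with all entries less than `2`. -/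
theorem minkowski {n : ℕ} (g : Matrix (Fin (n + 1)) (Fin (n + 1)) ℝ) (h0 : g.det ≠ 0)
    (h1 : |g.det| ≤ 1) :
    ∃ z : Fin (n + 1) → ℤ, z ≠ 0 ∧ ∀ k, |((fun i => (z i : ℝ)) ᵥ* g) k| < 2 := by
  have hli : LinearIndependent ℝ g.row := Matrix.linearIndependent_rows_of_det_ne_zero h0
  let b : Module.Basis (Fin (n + 1)) ℝ (Fin (n + 1) → ℝ) :=
    basisOfLinearIndependentOfCardEqFinrank hli (by simp)
  have hb : ∀ i, b i = g i := fun i => by
    simp only [b, coe_basisOfLinearIndependentOfCardEqFinrank]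
    rfl
  have hbg : Matrix.of b = g := by
    ext i j
    rw [Matrix.of_apply, hb]
  let s : Set (Fin (n + 1) → ℝ) := Set.pi Set.univ fun _ => Set.Ioo (-2) 2
  have hs : volume s = ENNReal.ofReal (4 ^ (n + 1)) := by
    simp only [s]
    rw [Real.volume_pi_Ioo]
    simp only [Finset.prod_const, Finset.card_univ, Fintype.card_fin]
    rw [ENNReal.ofReal_pow (by norm_num)]
    norm_num
  have hfund := ZSpan.isAddFundamentalDomain' b (volume : Measure (Fin (n + 1) → ℝ))
  have hcount : Countable (Submodule.span ℤ (Set.range b)).toAddSubgroup := by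
    show Countable (Submodule.span ℤ (Set.range b))
    infer_instance
  have hsym : ∀ x ∈ s, -x ∈ s := by
    intro x hx k hk
    have := hx k hk
    simp only [Set.mem_Ioo, Pi.neg_apply] at this ⊢
    constructor <;> linarith [this.1, this.2]
  have hconv : Convex ℝ s := convex_pi fun _ _ => convex_Ioo _ _
  have hlt : volume (ZSpan.fundamentalDomain b) *
      2 ^ Module.finrank ℝ (Fin (n + 1) → ℝ) < volume s := by
    rw [hs, ZSpan.volume_fundamentalDomain, hbg]
    simp only [Module.finrank_fintype_fun_eq_card, Fintype.card_fin]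
    calc ENNReal.ofReal |g.det| * 2 ^ (n + 1) ≤ 1 * 2 ^ (n + 1) := by
          gcongr
          exact ENNReal.ofReal_le_one.2 h1
      _ = ENNReal.ofReal (2 ^ (n + 1)) := by
          rw [one_mul, ENNReal.ofReal_pow (by norm_num)]; norm_num
      _ < ENNReal.ofReal (4 ^ (n + 1)) := by
          rw [ENNReal.ofReal_lt_ofReal_iff (by positivity)]
          exact pow_lt_pow_left₀ (by norm_num) (by norm_num) (by omega)
  obtain ⟨x, hx0, hx⟩ := exists_ne_zero_mem_lattice_of_measure_mul_two_pow_lt_measure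
    (s := s) hfund hsym hconv hlt
  have hx' : (x : Fin (n + 1) → ℝ) ∈ Submodule.span ℤ (Set.range b) := x.2
  rw [Submodule.mem_span_range_iff_exists_fun] at hx'
  obtain ⟨z, hz⟩ := hx'
  have hzg : ((fun i => (z i : ℝ)) ᵥ* g) = (x : Fin (n + 1) → ℝ) := by
    rw [← hz]
    funext k
    simp [Matrix.vecMul, dotProduct, Finset.sum_apply, hb]
  refine ⟨z, ?_, fun k => ?_⟩
  · rintro rfl
    apply hx0
    apply Subtype.ext
    rw [← hzg]
    funext k
    simp [Matrix.vecMul, dotProduct]
  · rw [hzg, abs_lt]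
    exact hx k (Set.mem_univ _)

/-- The two together: after multiplication by an element of `SL_n(ℤ)` the first row is short. -/
theorem short_row {n : ℕ} (g : Matrix (Fin (n + 1)) (Fin (n + 1)) ℝ) (h0 : g.det ≠ 0)
    (h1 : |g.det| ≤ 1) :
    ∃ γ : SpecialLinearGroup (Fin (n + 1)) ℤ,
      ∀ k, |(rm γ * g) 0 k| < 2 := by
  obtain ⟨z, hz, hk⟩ := minkowski g h0 h1
  obtain ⟨γ, d, hd, hγ⟩ := exists_row _ z rfl hz
  refine ⟨γ, fun k => ?_⟩
  have h2 : ((fun i => (z i : ℝ)) ᵥ* g) k =
      (d : ℝ) * (rm γ * g) 0 k := by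
    rw [Matrix.mul_apply, Matrix.vecMul, dotProduct, Finset.mul_sum]
    refine Finset.sum_congr rfl fun i _ => ?_
    have : z i = d * (γ : Matrix (Fin (n+1)) (Fin (n+1)) ℤ) 0 i := by
      rw [hγ]; simp
    rw [this, rm_apply]
    push_cast
    ring
  have h3 := hk k
  rw [h2, abs_mul] at h3
  have h4 : (1 : ℝ) ≤ |(d : ℝ)| := by
    have : (1 : ℤ) ≤ |d| := Int.one_le_abs hd
    exact_mod_cast this
  nlinarith [abs_nonneg ((rm γ * g) 0 k)]

end Vale.Agent.P092.H111
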