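import Vale.Agent.P092.H944.DNw

/-!
P092 (helper111), block [D0-GEO], part 1: singular values of `A⁻¹ B` for two near-wall matrices
`A`, `B` of size three whose attracting points are at a positive distance.
-/

namespace Vale.Agent.P092.H111

open Matrix Vale.Agent.P092.H944

section svd3

variable {A B C k1 k2 l1 l2 p1 p2 : Matrix (Fin 3) (Fin 3) ℝ} {a b c : Fin 3 → ℝ}

theorem sq10 (hA : IsSVD A k1 a k2) : a 1 ^ 2 ≤ a 0 ^ 2 :=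
  pow_le_pow_left₀ (hA.pos 1).le (hA.anti (by decide)) 2

theorem sq21 (hA : IsSVD A k1 a k2) : a 2 ^ 2 ≤ a 1 ^ 2 :=
  pow_le_pow_left₀ (hA.pos 2).le (hA.anti (by decide)) 2

theorem nq3 (v : Fin 3 → ℝ) : nq v = v 0 ^ 2 + v 1 ^ 2 + v 2 ^ 2 := by
  rw [nq, Fin.sum_univ_three]

theorem nqA (hA : IsSVD A k1 a k2) (w : Fin 3 → ℝ) : nq (A *ᵥ w) =
    a 0 ^ 2 * (k2 *ᵥ w) 0 ^ 2 + a 1 ^ 2 * (k2 *ᵥ w) 1 ^ 2 + a 2 ^ 2 * (k2 *ᵥ w) 2 ^ 2 := by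
  rw [hA.nq_mul, Fin.sum_univ_three]

theorem nqW (hA : IsSVD A k1 a k2) (w : Fin 3 → ℝ) : nq w =
    (k2 *ᵥ w) 0 ^ 2 + (k2 *ᵥ w) 1 ^ 2 + (k2 *ᵥ w) 2 ^ 2 := by
  rw [← nq_mulVec hA.o2 w, nq3]

theorem up0 (hA : IsSVD A k1 a k2) (w : Fin 3 → ℝ) : nq (A *ᵥ w) ≤ a 0 ^ 2 * nq w := by
  rw [nqA hA, nqW hA]
  have h1 := sq10 hA
  have h2 := sq21 hA
  nlinarith [sq_nonneg ((k2 *ᵥ w) 0), sq_nonneg ((k2 *ᵥ w) 1), sq_nonneg ((k2 *ᵥ w) 2)]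

theorem up1 (hA : IsSVD A k1 a k2) {w : Fin 3 → ℝ} (h : (k2 *ᵥ w) 0 = 0) :
    nq (A *ᵥ w) ≤ a 1 ^ 2 * nq w := by
  rw [nqA hA, nqW hA, h]
  have h2 := sq21 hA
  nlinarith [sq_nonneg ((k2 *ᵥ w) 1), sq_nonneg ((k2 *ᵥ w) 2)]

theorem lo1 (hA : IsSVD A k1 a k2) {w : Fin 3 → ℝ} (h : (k2 *ᵥ w) 2 = 0) :
    a 1 ^ 2 * nq w ≤ nq (A *ᵥ w) := by
  rw [nqA hA, nqW hA, h]
  have h2 := sq10 hA
  nlinarith [sq_nonneg ((k2 *ᵥ w) 1), sq_nonneg ((k2 *ᵥ w) 0)]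

theorem lo2 (hA : IsSVD A k1 a k2) (w : Fin 3 → ℝ) : a 2 ^ 2 * nq w ≤ nq (A *ᵥ w) := by
  rw [nqA hA, nqW hA]
  have h1 := sq10 hA
  have h2 := sq21 hA
  nlinarith [sq_nonneg ((k2 *ᵥ w) 0), sq_nonneg ((k2 *ᵥ w) 1), sq_nonneg ((k2 *ᵥ w) 2)]

theorem exists_ker (x y : ℝ) : ∃ s t : ℝ, 0 < s ^ 2 + t ^ 2 ∧ x * s + y * t = 0 := by
  by_cases h : x = 0
  · exact ⟨1, 0, by norm_num, by rw [h]; ring⟩
  · refine ⟨y, -x, ?_, by ring⟩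
    have := pow_pos (abs_pos.mpr h) 2
    rw [sq_abs] at this
    nlinarith [sq_nonneg y]

theorem vm (hA : IsSVD A k1 a k2) (u : Fin 3 → ℝ) : k2 *ᵥ (k2ᵀ *ᵥ u) = u := by
  rw [mulVec_mulVec, hA.o2', one_mulVec]

theorem le_of_sq_mul {x y N : ℝ} (hN : 0 < N) (hy : 0 ≤ y) (h : x ^ 2 * N ≤ y ^ 2 * N) :
    x ≤ y := by
  have h1 : x ^ 2 ≤ y ^ 2 := le_of_mul_le_mul_right h hN
  exact (abs_le_of_sq_le_sq' h1 hy).2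

/-- `σ₁(B) ≥ σ₁(C) σ₂(A)` for `B = A C`, indices `1, 1, 2`. -/
theorem c1_le (hA : IsSVD A k1 a k2) (hB : IsSVD B l1 b l2) (hC : IsSVD C p1 c p2)
    (e : B = A * C) : a 2 * c 1 ≤ b 1 := by
  obtain ⟨s, t, hst, h0⟩ := exists_ker ((l2 * p2ᵀ) 0 0) ((l2 * p2ᵀ) 0 1)
  obtain ⟨u, hu⟩ : ∃ u : Fin 3 → ℝ, u = ![s, t, 0] := ⟨_, rfl⟩
  obtain ⟨v, hv⟩ : ∃ v : Fin 3 → ℝ, v = p2ᵀ *ᵥ u := ⟨_, rfl⟩
  have hp : p2 *ᵥ v = u := by rw [hv, vm hC]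
  have hl : (l2 *ᵥ v) 0 = 0 := by
    rw [hv, mulVec_mulVec]
    change ∑ j, (l2 * p2ᵀ) 0 j * u j = 0
    rw [Fin.sum_univ_three, hu]
    simp only [Matrix.cons_val_zero, Matrix.cons_val_one, Matrix.cons_val]
    linarith
  have hN : nq v = s ^ 2 + t ^ 2 := by
    rw [nqW hC, hp, hu]
    simp
  have h1 := lo1 hC (w := v) (by rw [hp, hu]; simp)
  have h2 := up1 hB hl
  have h3 := lo2 hA (C *ᵥ v)
  rw [mulVec_mulVec, ← e] at h3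
  rw [hN] at h1 h2
  refine le_of_sq_mul hst (hB.pos 1).le ?_
  calc (a 2 * c 1) ^ 2 * (s ^ 2 + t ^ 2) = a 2 ^ 2 * (c 1 ^ 2 * (s ^ 2 + t ^ 2)) := by ring
    _ ≤ a 2 ^ 2 * nq (C *ᵥ v) := mul_le_mul_of_nonneg_left h1 (sq_nonneg _)
    _ ≤ nq (B *ᵥ v) := h3
    _ ≤ _ := h2

theorem b2_le (hA : IsSVD A k1 a k2) (hB : IsSVD B l1 b l2) (hC : IsSVD C p1 c p2)
    (e : B = A * C) : b 2 ≤ a 1 * c 1 := by
  obtain ⟨s, t, hst, h0⟩ := exists_ker ((k2 * C * p2ᵀ) 0 1) ((k2 * C * p2ᵀ) 0 2)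
  obtain ⟨u, hu⟩ : ∃ u : Fin 3 → ℝ, u = ![0, s, t] := ⟨_, rfl⟩
  obtain ⟨v, hv⟩ : ∃ v : Fin 3 → ℝ, v = p2ᵀ *ᵥ u := ⟨_, rfl⟩
  have hp : p2 *ᵥ v = u := by rw [hv, vm hC]
  have hl : (k2 *ᵥ (C *ᵥ v)) 0 = 0 := by
    rw [hv, mulVec_mulVec, mulVec_mulVec]
    change ∑ j, (k2 * C * p2ᵀ) 0 j * u j = 0
    rw [Fin.sum_univ_three, hu]
    simp only [Matrix.cons_val_zero, Matrix.cons_val_one, Matrix.cons_val]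
    linarith
  have hN : nq v = s ^ 2 + t ^ 2 := by
    rw [nqW hC, hp, hu]
    simp
  have h1 := up1 hC (w := v) (by rw [hp, hu]; simp)
  have h2 := up1 hA hl
  have h3 := lo2 hB v
  rw [mulVec_mulVec, ← e] at h2
  rw [hN] at h1 h3
  refine le_of_sq_mul hst (mul_pos (hA.pos 1) (hC.pos 1)).le ?_
  calc b 2 ^ 2 * (s ^ 2 + t ^ 2) ≤ nq (B *ᵥ v) := h3
    _ ≤ a 1 ^ 2 * nq (C *ᵥ v) := h2
    _ ≤ a 1 ^ 2 * (c 1 ^ 2 * (s ^ 2 + t ^ 2)) := mul_le_mul_of_nonneg_left h1 (sq_nonneg _)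
    _ = _ := by ring

theorem c0_le (hA : IsSVD A k1 a k2) (hB : IsSVD B l1 b l2) (hC : IsSVD C p1 c p2)
    (e : B = A * C) : a 2 * c 0 ≤ b 0 := by
  obtain ⟨v, hv⟩ : ∃ v : Fin 3 → ℝ, v = p2ᵀ *ᵥ ![1, 0, 0] := ⟨_, rfl⟩
  have hp : p2 *ᵥ v = ![1, 0, 0] := by rw [hv, vm hC]
  have hN : nq v = 1 := by
    rw [nqW hC, hp]
    simp
  have h1 : nq (C *ᵥ v) = c 0 ^ 2 := by
    rw [nqA hC, hp]
    simp
  have h2 := up0 hB v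
  have h3 := lo2 hA (C *ᵥ v)
  rw [mulVec_mulVec, ← e, h1] at h3
  rw [hN] at h2
  refine le_of_sq_mul one_pos (hB.pos 0).le ?_
  calc (a 2 * c 0) ^ 2 * 1 = a 2 ^ 2 * c 0 ^ 2 := by ring
    _ ≤ nq (B *ᵥ v) := h3
    _ ≤ _ := h2

theorem b2_le' (hA : IsSVD A k1 a k2) (hB : IsSVD B l1 b l2) (hC : IsSVD C p1 c p2)
    (e : B = A * C) : b 2 ≤ a 0 * c 2 := by
  obtain ⟨v, hv⟩ : ∃ v : Fin 3 → ℝ, v = p2ᵀ *ᵥ ![0, 0, 1] := ⟨_, rfl⟩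
  have hp : p2 *ᵥ v = ![0, 0, 1] := by rw [hv, vm hC]
  have hN : nq v = 1 := by
    rw [nqW hC, hp]
    simp
  have h1 : nq (C *ᵥ v) = c 2 ^ 2 := by
    rw [nqA hC, hp]
    simp
  have h2 := lo2 hB v
  have h3 := up0 hA (C *ᵥ v)
  rw [mulVec_mulVec, ← e, h1] at h3
  rw [hN] at h2
  refine le_of_sq_mul one_pos (mul_pos (hA.pos 0) (hC.pos 2)).le ?_
  calc b 2 ^ 2 * 1 ≤ nq (B *ᵥ v) := h2
    _ ≤ a 0 ^ 2 * c 2 ^ 2 := h3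
    _ = _ := by ring

/-- Singular values are unique. -/
theorem sv_unique3 (h : IsSVD A k1 a k2) (h' : IsSVD A l1 b l2) : a = b := by
  have h1 : IsSVD (1 : Matrix (Fin 3) (Fin 3) ℝ) 1 (fun _ => 1) 1 := by
    refine ⟨by simp, by simp, by simp, by simp, fun _ => one_pos, fun _ _ _ => le_rfl, ?_⟩
    ext i j
    simp [Matrix.one_apply]
  have e : A = 1 * A := (Matrix.one_mul A).symm
  have u0 := c0_le h1 h' h e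
  have v0 := c0_le h1 h h' e
  have u1 := c1_le h1 h' h e
  have v1 := c1_le h1 h h' e
  have u2 := b2_le' h1 h' h e
  have v2 := b2_le' h1 h h' e
  rw [one_mul] at u0 v0 u1 v1 u2 v2
  funext i
  fin_cases i
  · exact le_antisymm u0 v0
  · exact le_antisymm u1 v1
  · exact le_antisymm v2 u2

/-- the angle between the attracting points -/
def An (δ : ℝ) (k1 l1 : Matrix (Fin 3) (Fin 3) ℝ) : Prop :=
  δ ^ 2 ≤ (k1ᵀ * l1) 1 0 ^ 2 + (k1ᵀ * l1) 2 0 ^ 2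

theorem An.row {δ : ℝ} (h : An δ k1 l1) (h1 : k1ᵀ * k1 = 1) (h1' : k1 * k1ᵀ = 1)
    (h2 : l1ᵀ * l1 = 1) (h2' : l1 * l1ᵀ = 1) :
    δ ^ 2 ≤ (k1ᵀ * l1) 0 1 ^ 2 + (k1ᵀ * l1) 0 2 ^ 2 := by
  have o := orth_tr_mul h2' h1' h2 h1
  have r := orth_row o.1 0
  have c := orth_col o.2 0
  rw [Fin.sum_univ_three] at r c
  unfold An at h
  linarith

/-- coordinates in the left frame -/
theorem kA_coord (hA : IsSVD A k1 a k2) (w : Fin 3 → ℝ) (i : Fin 3) :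
    (k1ᵀ *ᵥ (A *ᵥ w)) i = a i * (k2 *ᵥ w) i := by
  rw [hA.eq, mulVec_mulVec]
  have : k1ᵀ * (k1 * diagonal a * k2) = diagonal a * k2 := by
    rw [← Matrix.mul_assoc, ← Matrix.mul_assoc, hA.o1, Matrix.one_mul]
  rw [this, ← mulVec_mulVec, mulVec_diagonal]

theorem c0_ge {δ : ℝ} (hA : IsSVD A k1 a k2) (hB : IsSVD B l1 b l2)
    (hC : IsSVD C p1 c p2) (e : B = A * C) (h : An δ k1 l1) : δ * b 0 ≤ a 1 * c 0 := by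
  obtain ⟨v, hv⟩ : ∃ v : Fin 3 → ℝ, v = l2ᵀ *ᵥ ![1, 0, 0] := ⟨_, rfl⟩
  have hp : l2 *ᵥ v = ![1, 0, 0] := by rw [hv, vm hB]
  have hN : nq v = 1 := by
    rw [nqW hB, hp]
    simp
  have h1 := up0 hC v
  rw [hN, mul_one] at h1
  -- the coordinates of `B v` in the left frame of `A`
  have hb : ∀ i, a i * (k2 *ᵥ (C *ᵥ v)) i = b 0 * (k1ᵀ * l1) i 0 := by
    intro i
    rw [← kA_coord hA, mulVec_mulVec (M := A), ← e]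
    have : k1ᵀ *ᵥ (B *ᵥ v) = (k1ᵀ * l1) *ᵥ (l1ᵀ *ᵥ (B *ᵥ v)) := by
      rw [mulVec_mulVec (M := k1ᵀ * l1), Matrix.mul_assoc, hB.o1', Matrix.mul_one]
    rw [this]
    change ∑ j, (k1ᵀ * l1) i j * (l1ᵀ *ᵥ (B *ᵥ v)) j = _
    rw [Fin.sum_univ_three, kA_coord hB, kA_coord hB, kA_coord hB, hp]
    simp
    ring
  have h2 := nqW hA (C *ᵥ v)
  have e1 := hb 1
  have e2 := hb 2
  unfold An at h
  have h3 := sq21 hA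
  have f1 : (b 0) ^ 2 * (k1ᵀ * l1) 1 0 ^ 2 = a 1 ^ 2 * (k2 *ᵥ (C *ᵥ v)) 1 ^ 2 := by
    rw [← mul_pow, ← e1]; ring
  have f2 : (b 0) ^ 2 * (k1ᵀ * l1) 2 0 ^ 2 ≤ a 1 ^ 2 * (k2 *ᵥ (C *ᵥ v)) 2 ^ 2 := by
    rw [← mul_pow, ← e2, mul_pow]
    exact mul_le_mul_of_nonneg_right h3 (sq_nonneg _)
  have f3 : a 1 ^ 2 * nq (C *ᵥ v) ≤ a 1 ^ 2 * c 0 ^ 2 :=
    mul_le_mul_of_nonneg_left h1 (sq_nonneg _)
  have f4 : b 0 ^ 2 * δ ^ 2 ≤ b 0 ^ 2 * ((k1ᵀ * l1) 1 0 ^ 2 + (k1ᵀ * l1) 2 0 ^ 2) :=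
    mul_le_mul_of_nonneg_left h (sq_nonneg _)
  have f5 : 0 ≤ a 1 ^ 2 * (k2 *ᵥ (C *ᵥ v)) 0 ^ 2 := by positivity
  refine le_of_sq_mul one_pos (mul_pos (hA.pos 1) (hC.pos 0)).le ?_
  rw [h2] at f3
  nlinarith

theorem c2_le {δ : ℝ} (hA : IsSVD A k1 a k2) (hB : IsSVD B l1 b l2)
    (hC : IsSVD C p1 c p2) (e : B = A * C) (h : An δ k1 l1) : δ * (a 0 * c 2) ≤ b 1 := by
  obtain ⟨w, hw⟩ : ∃ w : Fin 3 → ℝ, w = k2ᵀ *ᵥ ![1, 0, 0] := ⟨_, rfl⟩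
  have hp : k2 *ᵥ w = ![1, 0, 0] := by rw [hw, vm hA]
  have hN : nq w = 1 := by
    rw [nqW hA, hp]
    simp
  obtain ⟨v, hv⟩ : ∃ v : Fin 3 → ℝ, C *ᵥ v = w := by
    refine ⟨p2ᵀ *ᵥ (diagonal (fun i => (c i)⁻¹) *ᵥ (p1ᵀ *ᵥ w)), ?_⟩
    have hd : diagonal c * diagonal (fun i => (c i)⁻¹) = (1 : Matrix (Fin 3) (Fin 3) ℝ) := by
      rw [diagonal_mul_diagonal, ← diagonal_one]
      congr 1
      funext i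
      exact mul_inv_cancel₀ (hC.pos i).ne'
    rw [hC.eq, mulVec_mulVec, mulVec_mulVec, mulVec_mulVec]
    have : p1 * diagonal c * p2 * p2ᵀ * diagonal (fun i => (c i)⁻¹) * p1ᵀ = 1 := by
      rw [Matrix.mul_assoc (p1 * diagonal c) p2 p2ᵀ, hC.o2', Matrix.mul_one,
        Matrix.mul_assoc p1, hd, Matrix.mul_one, hC.o1']
    rw [this, one_mulVec]
  have h1 := lo2 hC v
  rw [hv, hN] at h1
  have hb : ∀ j, b j * (l2 *ᵥ v) j = a 0 * (k1ᵀ * l1) 0 j := by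
    intro j
    rw [← kA_coord hB, e, ← mulVec_mulVec, hv]
    have : l1ᵀ *ᵥ (A *ᵥ w) = (k1ᵀ * l1)ᵀ *ᵥ (k1ᵀ *ᵥ (A *ᵥ w)) := by
      rw [mulVec_mulVec (M := (k1ᵀ * l1)ᵀ), transpose_mul, transpose_transpose,
        Matrix.mul_assoc, hA.o1', Matrix.mul_one]
    rw [this]
    change ∑ i, (k1ᵀ * l1)ᵀ j i * (k1ᵀ *ᵥ (A *ᵥ w)) i = _
    rw [Fin.sum_univ_three, kA_coord hA, kA_coord hA, kA_coord hA, hp]
    simp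
    ring
  have h2 := nqW hB v
  have e1 := hb 1
  have e2 := hb 2
  have h' := h.row hA.o1 hA.o1' hB.o1 hB.o1'
  have h3 := sq21 hB
  have f1 : (a 0) ^ 2 * (k1ᵀ * l1) 0 1 ^ 2 = b 1 ^ 2 * (l2 *ᵥ v) 1 ^ 2 := by
    rw [← mul_pow, ← e1]; ring
  have f2 : (a 0) ^ 2 * (k1ᵀ * l1) 0 2 ^ 2 ≤ b 1 ^ 2 * (l2 *ᵥ v) 2 ^ 2 := by
    rw [← mul_pow, ← e2, mul_pow]
    exact mul_le_mul_of_nonneg_right h3 (sq_nonneg _)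
  have f4 : a 0 ^ 2 * δ ^ 2 ≤ a 0 ^ 2 * ((k1ᵀ * l1) 0 1 ^ 2 + (k1ᵀ * l1) 0 2 ^ 2) :=
    mul_le_mul_of_nonneg_left h' (sq_nonneg _)
  have f5 : 0 ≤ b 1 ^ 2 * (l2 *ᵥ v) 0 ^ 2 := by positivity
  have f6 : a 0 ^ 2 * δ ^ 2 ≤ b 1 ^ 2 * nq v := by
    rw [h2]
    nlinarith
  have f7 : b 1 ^ 2 * (c 2 ^ 2 * nq v) ≤ b 1 ^ 2 * 1 := mul_le_mul_of_nonneg_left h1 (sq_nonneg _)
  have f8 : c 2 ^ 2 * (a 0 ^ 2 * δ ^ 2) ≤ c 2 ^ 2 * (b 1 ^ 2 * nq v) :=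
    mul_le_mul_of_nonneg_left f6 (sq_nonneg _)
  refine le_of_sq_mul one_pos (hB.pos 1).le ?_
  nlinarith

end svd3

section sep

variable {k1 l1 : Matrix (Fin 3) (Fin 3) ℝ}

/-- The square of the distance to the first vector of an orthonormal frame. -/
def rest (k1 : Matrix (Fin 3) (Fin 3) ℝ) (u : Fin 3 → ℝ) : ℝ :=
  (k1ᵀ *ᵥ u) 1 ^ 2 + (k1ᵀ *ᵥ u) 2 ^ 2

/-- A vector close to two different lines is small. -/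
theorem nq_le_rest {δ : ℝ} (hδ : 0 < δ) (h : An δ k1 l1) (h1 : k1 * k1ᵀ = 1)
    (h1' : k1ᵀ * k1 = 1) (h2 : l1ᵀ * l1 = 1) (h2' : l1 * l1ᵀ = 1) (u : Fin 3 → ℝ) :
    nq u ≤ (2 / δ ^ 2 + 1) * (rest k1 u + rest l1 u) := by
  obtain ⟨ζ, hζ⟩ : ∃ ζ : Fin 3 → ℝ, ζ = l1ᵀ *ᵥ u := ⟨_, rfl⟩
  have e0 : nq u = ζ 0 ^ 2 + ζ 1 ^ 2 + ζ 2 ^ 2 := by
    rw [← nq3, hζ, nq_mulVec (by rw [transpose_transpose]; exact h2')]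
  have e1 : k1ᵀ *ᵥ u = (k1ᵀ * l1) *ᵥ ζ := by
    rw [hζ, mulVec_mulVec, Matrix.mul_assoc, h2', Matrix.mul_one]
  have e2 : ∀ i, (k1ᵀ *ᵥ u) i = (k1ᵀ * l1) i 0 * ζ 0 + (k1ᵀ * l1) i 1 * ζ 1 +
      (k1ᵀ * l1) i 2 * ζ 2 := by
    intro i
    rw [e1]
    change ∑ j, (k1ᵀ * l1) i j * ζ j = _
    rw [Fin.sum_univ_three]
  have o := orth_tr_mul h2' h1 h2 h1'
  obtain ⟨ζ', hζ'⟩ : ∃ ζ' : Fin 3 → ℝ, ζ' = ![0, ζ 1, ζ 2] := ⟨_, rfl⟩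
  have e3 : nq ((k1ᵀ * l1) *ᵥ ζ') = ζ 1 ^ 2 + ζ 2 ^ 2 := by
    rw [nq_mulVec o.2, nq3, hζ']
    simp
  have e4 : ∀ i, ((k1ᵀ * l1) *ᵥ ζ') i = (k1ᵀ * l1) i 1 * ζ 1 + (k1ᵀ * l1) i 2 * ζ 2 := by
    intro i
    change ∑ j, (k1ᵀ * l1) i j * ζ' j = _
    rw [Fin.sum_univ_three, hζ']
    simp
  rw [nq3, e4, e4, e4] at e3
  have r1 := e2 1
  have r2 := e2 2
  unfold An at h
  have f1 : δ ^ 2 * ζ 0 ^ 2 ≤ 2 * (rest k1 u + rest l1 u) := by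
    have g1 : ((k1ᵀ * l1) 1 0 ^ 2 + (k1ᵀ * l1) 2 0 ^ 2) * ζ 0 ^ 2 ≤
        2 * (rest k1 u + rest l1 u) := by
      unfold rest
      rw [← hζ, r1, r2]
      nlinarith [sq_nonneg ((k1ᵀ * l1) 1 0 * ζ 0 + 2 * ((k1ᵀ * l1) 1 1 * ζ 1 +
        (k1ᵀ * l1) 1 2 * ζ 2)), sq_nonneg ((k1ᵀ * l1) 2 0 * ζ 0 +
        2 * ((k1ᵀ * l1) 2 1 * ζ 1 + (k1ᵀ * l1) 2 2 * ζ 2)),
        sq_nonneg ((k1ᵀ * l1) 0 1 * ζ 1 + (k1ᵀ * l1) 0 2 * ζ 2)]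
    exact (mul_le_mul_of_nonneg_right h (sq_nonneg _)).trans g1
  have f2 : ζ 0 ^ 2 ≤ 2 / δ ^ 2 * (rest k1 u + rest l1 u) := by
    rw [div_mul_eq_mul_div, le_div_iff₀ (by positivity)]
    linarith
  have f3 : 0 ≤ rest k1 u := by unfold rest; positivity
  have f4 : ζ 1 ^ 2 + ζ 2 ^ 2 = rest l1 u := by unfold rest; rw [hζ]
  rw [e0]
  linarith

variable {A A' k2 : Matrix (Fin 3) (Fin 3) ℝ} {a : Fin 3 → ℝ}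

theorem rest_le (hA : IsSVD A k1 a k2) (w : Fin 3 → ℝ) : rest k1 (A *ᵥ w) ≤ a 1 ^ 2 * nq w := by
  unfold rest
  rw [kA_coord hA, kA_coord hA, nqW hA, mul_pow, mul_pow]
  have h2 := sq21 hA
  nlinarith [sq_nonneg ((k2 *ᵥ w) 0), sq_nonneg ((k2 *ᵥ w) 1), sq_nonneg ((k2 *ᵥ w) 2),
    sq_nonneg (a 1)]

/-- **Bounded position.** `E A = A'`, `E B = B'`. -/
theorem hs_E {A B E A' B' k1 k2 k1' k2' l1 l2 l1' l2' : Matrix (Fin 3) (Fin 3) ℝ}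
    {a a' b b' : Fin 3 → ℝ} (hA : IsSVD A k1 a k2) (hA' : IsSVD A' k1' a' k2')
    (hB : IsSVD B l1 b l2) (hB' : IsSVD B' l1' b' l2') (eA : A' = E * A) (eB : B' = E * B)
    {δ K : ℝ} (hδ : 0 < δ) (h : An δ k1' l1') (ha : a' 1 ^ 2 ≤ K * a 2 ^ 2)
    (hb : b' 1 ^ 2 ≤ K * b 2 ^ 2) (hK : 0 ≤ K) :
    hs E ≤ 3 * ((2 / δ ^ 2 + 1) * (K + K)) := by
  have inv : ∀ {M m1 m2 : Matrix (Fin 3) (Fin 3) ℝ} {c : Fin 3 → ℝ}, IsSVD M m1 c m2 →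
      ∀ z : Fin 3 → ℝ, ∃ w, M *ᵥ w = z := by
    intro M m1 m2 c hC z
    refine ⟨m2ᵀ *ᵥ (diagonal (fun i => (c i)⁻¹) *ᵥ (m1ᵀ *ᵥ z)), ?_⟩
    have hd : diagonal c * diagonal (fun i => (c i)⁻¹) = (1 : Matrix (Fin 3) (Fin 3) ℝ) := by
      rw [diagonal_mul_diagonal, ← diagonal_one]
      congr 1
      funext i
      exact mul_inv_cancel₀ (hC.pos i).ne'
    rw [hC.eq, mulVec_mulVec, mulVec_mulVec, mulVec_mulVec]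
    have : m1 * diagonal c * m2 * m2ᵀ * diagonal (fun i => (c i)⁻¹) * m1ᵀ = 1 := by
      rw [Matrix.mul_assoc (m1 * diagonal c) m2 m2ᵀ, hC.o2', Matrix.mul_one,
        Matrix.mul_assoc m1, hd, Matrix.mul_one, hC.o1']
    rw [this, one_mulVec]
  have key : ∀ z, nq (E *ᵥ z) ≤ ((2 / δ ^ 2 + 1) * (K + K)) * nq z := by
    intro z
    obtain ⟨w, hw⟩ := inv hA z
    obtain ⟨v, hv⟩ := inv hB z
    have e1 : E *ᵥ z = A' *ᵥ w := by rw [eA, ← mulVec_mulVec, hw]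
    have e2 : E *ᵥ z = B' *ᵥ v := by rw [eB, ← mulVec_mulVec, hv]
    have r1 := rest_le hA' w
    have r2 := rest_le hB' v
    rw [← e1] at r1
    rw [← e2] at r2
    have s1 := lo2 hA w
    have s2 := lo2 hB v
    rw [hw] at s1
    rw [hv] at s2
    have t1 : a' 1 ^ 2 * nq w ≤ K * nq z := by
      calc a' 1 ^ 2 * nq w ≤ K * a 2 ^ 2 * nq w :=
            mul_le_mul_of_nonneg_right ha (nq_nonneg _)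
        _ = K * (a 2 ^ 2 * nq w) := by ring
        _ ≤ _ := mul_le_mul_of_nonneg_left s1 hK
    have t2 : b' 1 ^ 2 * nq v ≤ K * nq z := by
      calc b' 1 ^ 2 * nq v ≤ K * b 2 ^ 2 * nq v :=
            mul_le_mul_of_nonneg_right hb (nq_nonneg _)
        _ = K * (b 2 ^ 2 * nq v) := by ring
        _ ≤ _ := mul_le_mul_of_nonneg_left s2 hK
    have := nq_le_rest hδ h hA'.o1' hA'.o1 hB'.o1 hB'.o1' (E *ᵥ z)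
    refine this.trans ?_
    rw [mul_assoc]
    refine mul_le_mul_of_nonneg_left ?_ (by positivity)
    linarith
  rw [hs_eq_sum_nq, Fin.sum_univ_three]
  have s1 : ∀ j : Fin 3, nq (Pi.single j (1 : ℝ) : Fin 3 → ℝ) = 1 := fun j => by
    rw [nq_eq, dotProduct_single, Pi.single_eq_same, mul_one]
  have k0 := key (Pi.single 0 1)
  have k1 := key (Pi.single 1 1)
  have k2 := key (Pi.single 2 1)
  rw [s1] at k0 k1 k2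
  linarith

end sep

end Vale.Agent.P092.H111
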