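import Vale.Agent.P092.H111.SepA
import Vale.Agent.P092.H944.DNwG
import Vale.Agent.P092.H820.Pn
import Vale.Agent.P092.H859.CLB

/-!
P092 (helper111), block [D0-GEO], part 2: geometric separation of two disjoint closed sets of
attracting points, near a wall of a discrete group of real matrices of size three.
-/

namespace Vale.Agent.P092.H111

open Matrix Vale.Agent.P092.H944 Vale.Agent.P092.H820 Vale.Agent.P092.H859
open scoped LinearAlgebra.Projectivization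

/-- `p` is the line of some first left singular vector of `M`. -/
def FLS (M : Matrix (Fin 3) (Fin 3) ℝ) (p : ℙ ℝ (Fin 3 → ℝ)) : Prop :=
  ∃ (k l : Matrix (Fin 3) (Fin 3) ℝ) (a : Fin 3 → ℝ) (h : (fun i => k i 0) ≠ 0),
    IsSVD M k a l ∧ p = Projectivization.mk ℝ (fun i => k i 0) h

theorem col_ne {k : Matrix (Fin 3) (Fin 3) ℝ} (h : kᵀ * k = 1) (j : Fin 3) :
    (fun i => k i j) ≠ 0 := by
  intro h0
  have := orth_col h j
  rw [Finset.sum_eq_zero fun i _ => by rw [show k i j = 0 from congrFun h0 i]; norm_num] at this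
  exact zero_ne_one this

theorem fls_kA {M : Matrix (Fin 3) (Fin 3) ℝ} (hM : M.det ≠ 0) :
    ∃ h, FLS M (Projectivization.mk ℝ (fun i => kA M i 0) h) :=
  ⟨col_ne (isSVD hM).o1 0, kA M, kB M, sv M, col_ne (isSVD hM).o1 0, isSVD hM, rfl⟩

theorem svd_neg {M k l : Matrix (Fin 3) (Fin 3) ℝ} {a : Fin 3 → ℝ} (h : IsSVD M k a l) :
    IsSVD (-M) (-k) a l := by
  refine ⟨?_, ?_, h.o2, h.o2', h.pos, h.anti, ?_⟩
  · rw [transpose_neg, Matrix.neg_mul, Matrix.mul_neg, neg_neg, h.o1]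
  · rw [transpose_neg, Matrix.neg_mul, Matrix.mul_neg, neg_neg, h.o1']
  · rw [Matrix.neg_mul, Matrix.neg_mul, ← h.eq]

theorem An.neg {δ : ℝ} {k1 l1 : Matrix (Fin 3) (Fin 3) ℝ} (h : An δ k1 l1) : An δ k1 (-l1) := by
  unfold An at h ⊢
  rw [Matrix.mul_neg, Matrix.neg_apply, Matrix.neg_apply, neg_sq, neg_sq]
  exact h

theorem An.neg' {δ : ℝ} {k1 l1 : Matrix (Fin 3) (Fin 3) ℝ} (h : An δ k1 l1) : An δ (-k1) l1 := by
  unfold An at h ⊢
  rw [transpose_neg, Matrix.neg_mul, Matrix.neg_apply, Matrix.neg_apply, neg_sq, neg_sq]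
  exact h

/-- Two disjoint closed sets of points are at a positive distance. -/
theorem exists_angle {A A' : Set (ℙ ℝ (Fin 3 → ℝ))} (hA : IsClosed A) (hA' : IsClosed A')
    (hd : Disjoint A A') : ∃ δ : ℝ, 0 < δ ∧ ∀ (v w : Fin 3 → ℝ) (hv : v ≠ 0) (hw : w ≠ 0),
      nq v = 1 → nq w = 1 → Projectivization.mk ℝ v hv ∈ A → Projectivization.mk ℝ w hw ∈ A' →
      δ ^ 2 ≤ 1 - (v ⬝ᵥ w) ^ 2 := by
  have hS : IsCompact {v : Fin 3 → ℝ | nq v = 1} := by
    have hc : Continuous fun v : Fin 3 → ℝ => nq v := by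
      unfold nq
      fun_prop
    refine Metric.isCompact_of_isClosed_isBounded (isClosed_eq hc continuous_const) ?_
    refine (Metric.isBounded_closedBall (x := (0 : Fin 3 → ℝ)) (r := 1)).subset fun v hv => ?_
    rw [mem_closedBall_zero_iff, pi_norm_le_iff_of_nonneg zero_le_one]
    intro i
    have h1 := sq_le_nq v i
    rw [show nq v = 1 from hv] at h1
    rw [Real.norm_eq_abs]
    exact abs_le_one_iff_mul_self_le_one.mpr (by rwa [← sq])
  have hne : ∀ v : {v : Fin 3 → ℝ | nq v = 1}, v.1 ≠ 0 := by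
    intro v h0
    have := v.2
    rw [Set.mem_ofPred_eq, h0] at this
    simp [nq] at this
  obtain ⟨f, hf⟩ : ∃ f : {v : Fin 3 → ℝ | nq v = 1} → ℙ ℝ (Fin 3 → ℝ),
      f = fun v => pj ℝ (Fin 3) ⟨v.1, hne v⟩ := ⟨_, rfl⟩
  have hfc : Continuous f := by
    rw [hf]
    exact pj_continuous.comp (Continuous.subtype_mk continuous_subtype_val _)
  have : CompactSpace {v : Fin 3 → ℝ | nq v = 1} := isCompact_iff_compactSpace.1 hS
  have hK : IsCompact ((f ⁻¹' A) ×ˢ (f ⁻¹' A')) :=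
    ((hA.preimage hfc).isCompact).prod ((hA'.preimage hfc).isCompact)
  have hg : Continuous fun p : {v : Fin 3 → ℝ | nq v = 1} × {v : Fin 3 → ℝ | nq v = 1} =>
      1 - (p.1.1 ⬝ᵥ p.2.1) ^ 2 := by
    have h1 : ∀ i : Fin 3, Continuous fun p : {v : Fin 3 → ℝ | nq v = 1} ×
        {v : Fin 3 → ℝ | nq v = 1} => p.1.1 i * p.2.1 i := fun i =>
      ((continuous_apply i).comp (continuous_subtype_val.comp continuous_fst)).mul
        ((continuous_apply i).comp (continuous_subtype_val.comp continuous_snd))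
    exact continuous_const.sub ((continuous_finsetSum _ fun i _ => h1 i).pow 2)
  rcases Set.eq_empty_or_nonempty ((f ⁻¹' A) ×ˢ (f ⁻¹' A')) with h0 | h0
  · refine ⟨1, one_pos, fun v w hv hw nv nw hvA hwA => ?_⟩
    exfalso
    have : (⟨⟨v, nv⟩, ⟨w, nw⟩⟩ : {v : Fin 3 → ℝ | nq v = 1} × {v : Fin 3 → ℝ | nq v = 1}) ∈
        (f ⁻¹' A) ×ˢ (f ⁻¹' A') := by
      refine ⟨?_, ?_⟩
      · rw [Set.mem_preimage, hf]; exact hvA
      · rw [Set.mem_preimage, hf]; exact hwA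
    rw [h0] at this
    exact this
  · obtain ⟨p, hp, hmin⟩ := hK.exists_isMinOn h0 hg.continuousOn
    obtain ⟨c, hc⟩ : ∃ c : ℝ, c = 1 - (p.1.1 ⬝ᵥ p.2.1) ^ 2 := ⟨_, rfl⟩
    have hcpos : 0 < c := by
      have n1 : nq p.1.1 = 1 := p.1.2
      have n2 : nq p.2.1 = 1 := p.2.2
      have lag : c = wd p.1.1 p.2.1 (0, 1) ^ 2 + wd p.1.1 p.2.1 (0, 2) ^ 2 +
          wd p.1.1 p.2.1 (1, 2) ^ 2 := by
        have : c = nq p.1.1 * nq p.2.1 - (p.1.1 ⬝ᵥ p.2.1) ^ 2 := by rw [n1, n2, hc]; ring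
        rw [this, nq3, nq3]
        simp only [wd, dotProduct, Fin.sum_univ_three]
        ring
      have hc0 : 0 ≤ c := by rw [lag]; positivity
      rcases hc0.lt_or_eq with h | h
      · exact h
      exfalso
      rw [lag] at h
      have z1 : wd p.1.1 p.2.1 (0, 1) = 0 := by
        apply pow_eq_zero_iff (two_ne_zero) |>.mp
        nlinarith [sq_nonneg (wd p.1.1 p.2.1 (0, 1)), sq_nonneg (wd p.1.1 p.2.1 (0, 2)),
          sq_nonneg (wd p.1.1 p.2.1 (1, 2))]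
      have z2 : wd p.1.1 p.2.1 (0, 2) = 0 := by
        apply pow_eq_zero_iff (two_ne_zero) |>.mp
        nlinarith [sq_nonneg (wd p.1.1 p.2.1 (0, 1)), sq_nonneg (wd p.1.1 p.2.1 (0, 2)),
          sq_nonneg (wd p.1.1 p.2.1 (1, 2))]
      have z3 : wd p.1.1 p.2.1 (1, 2) = 0 := by
        apply pow_eq_zero_iff (two_ne_zero) |>.mp
        nlinarith [sq_nonneg (wd p.1.1 p.2.1 (0, 1)), sq_nonneg (wd p.1.1 p.2.1 (0, 2)),
          sq_nonneg (wd p.1.1 p.2.1 (1, 2))]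
      have hw : wd p.1.1 p.2.1 = 0 := by
        funext ij
        obtain ⟨i, j⟩ := ij
        simp only [wd] at z1 z2 z3
        simp only [wd, Pi.zero_apply]
        fin_cases i <;> fin_cases j <;>
          simp only [Fin.zero_eta, Fin.mk_one, Fin.reduceFinMk] <;> linarith
      have : f p.1 = f p.2 := by
        rw [hf]
        exact (pj_eq_iff _ _).2 hw
      have m1 : f p.1 ∈ A := hp.1
      have m2 : f p.2 ∈ A' := hp.2
      rw [← this] at m2
      exact Set.disjoint_left.mp hd m1 m2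
    refine ⟨Real.sqrt c, Real.sqrt_pos.mpr hcpos, fun v w hv hw nv nw hvA hwA => ?_⟩
    rw [Real.sq_sqrt hcpos.le, hc]
    have := hmin (show (⟨⟨v, nv⟩, ⟨w, nw⟩⟩ : {v : Fin 3 → ℝ | nq v = 1} ×
      {v : Fin 3 → ℝ | nq v = 1}) ∈ (f ⁻¹' A) ×ˢ (f ⁻¹' A') from by
      refine ⟨?_, ?_⟩
      · rw [Set.mem_preimage, hf]; exact hvA
      · rw [Set.mem_preimage, hf]; exact hwA)
    exact this

theorem an_of_dot {k1 l1 : Matrix (Fin 3) (Fin 3) ℝ} (h1 : k1ᵀ * k1 = 1) (h1' : k1 * k1ᵀ = 1)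
    (h2 : l1ᵀ * l1 = 1) (h2' : l1 * l1ᵀ = 1) {δ : ℝ}
    (h : δ ^ 2 ≤ 1 - ((fun i => k1 i 0) ⬝ᵥ (fun i => l1 i 0)) ^ 2) : An δ k1 l1 := by
  have o := orth_tr_mul h2' h1' h2 h1
  have c := orth_col o.2 0
  rw [Fin.sum_univ_three] at c
  have e : (k1ᵀ * l1) 0 0 = (fun i => k1 i 0) ⬝ᵥ (fun i => l1 i 0) := rfl
  unfold An
  rw [← e] at h
  linarith

/-- Closed disjoint sets: the angle between the frames. -/
theorem exists_an {A A' : Set (ℙ ℝ (Fin 3 → ℝ))} (hA : IsClosed A) (hA' : IsClosed A')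
    (hd : Disjoint A A') : ∃ δ : ℝ, 0 < δ ∧ ∀ (k l : Matrix (Fin 3) (Fin 3) ℝ)
      (hv : (fun i => k i 0) ≠ 0) (hw : (fun i => l i 0) ≠ 0),
      kᵀ * k = 1 → k * kᵀ = 1 → lᵀ * l = 1 → l * lᵀ = 1 →
      Projectivization.mk ℝ (fun i => k i 0) hv ∈ A →
      Projectivization.mk ℝ (fun i => l i 0) hw ∈ A' → An δ k l := by
  obtain ⟨δ, hδ, h⟩ := exists_angle hA hA' hd
  refine ⟨δ, hδ, fun k l hv hw h1 h1' h2 h2' m1 m2 => an_of_dot h1 h1' h2 h2' ?_⟩
  exact h _ _ hv hw (orth_col h1 0) (orth_col h2 0) m1 m2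

end Vale.Agent.P092.H111
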