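import Vale.Agent.P092.H111.SepB

/-!
P092 (helper111), block [D0-GEO], part 3: the theorem `SepP` for disjoint closed sets of
attracting points.
-/

namespace Vale.Agent.P092.H111

open Matrix Vale.Agent.P092.H944 Vale.Agent.P092.H820 Vale.Agent.P092.H859
open scoped LinearAlgebra.Projectivization

section logs

variable {A B C k1 k2 l1 l2 p1 p2 : Matrix (Fin 3) (Fin 3) ℝ} {a b c : Fin 3 → ℝ}

theorem la_log (h : IsSVD A k1 a k2) (hA : A.det ≠ 0) (i : Fin 3) : la A i = Real.log (a i) := by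
  rw [la_fin, sv_unique3 (isSVD hA) h]

theorem la_log0 (h : IsSVD A k1 a k2) (hA : A.det ≠ 0) : la A 0 = Real.log (a 0) :=
  la_log h hA 0

theorem la_log1 (h : IsSVD A k1 a k2) (hA : A.det ≠ 0) : la A 1 = Real.log (a 1) :=
  la_log h hA 1

theorem la_log2 (h : IsSVD A k1 a k2) (hA : A.det ≠ 0) : la A 2 = Real.log (a 2) :=
  la_log h hA 2

theorem gap0 (A : Matrix (Fin 3) (Fin 3) ℝ) : gap 0 A = 2 * (la A 0 - la A 1) := by
  unfold gap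
  rw [if_pos (by norm_num)]

theorem gap1 (A : Matrix (Fin 3) (Fin 3) ℝ) : gap 1 A = 2 * (la A 1 - la A 2) := by
  unfold gap
  rw [if_pos (by norm_num)]

theorem sum3 (hA : |A.det| = 1) : la A 0 + la A 1 + la A 2 = 0 := by
  have := sum_la hA
  rw [Fin.sum_univ_three] at this
  exact this

/-- The inequalities between the logarithms of the singular values of `A`, `B`, `C = ± A⁻¹ B`. -/
structure Lg (A B C : Matrix (Fin 3) (Fin 3) ℝ) (d : ℝ) : Prop where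
  i1 : d + la B 0 ≤ la A 1 + la C 0
  i2 : la A 2 + la C 1 ≤ la B 1
  i3 : d + (la A 0 + la C 2) ≤ la B 1
  i4 : la B 2 ≤ la A 1 + la C 1
  i5 : la A 2 + la C 0 ≤ la B 0
  i6 : la B 2 ≤ la A 0 + la C 2

theorem lg_aux {δ : ℝ} (hδ : 0 < δ) (hA : IsSVD A k1 a k2) (hB : IsSVD B l1 b l2)
    (hC : IsSVD C p1 c p2) (e : B = A * C) (h : An δ k1 l1) :
    (Real.log δ + Real.log (b 0) ≤ Real.log (a 1) + Real.log (c 0) ∧
    Real.log (a 2) + Real.log (c 1) ≤ Real.log (b 1) ∧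
    Real.log δ + (Real.log (a 0) + Real.log (c 2)) ≤ Real.log (b 1)) ∧
    Real.log (b 2) ≤ Real.log (a 1) + Real.log (c 1) ∧
    Real.log (a 2) + Real.log (c 0) ≤ Real.log (b 0) ∧
    Real.log (b 2) ≤ Real.log (a 0) + Real.log (c 2) := by
  have m : ∀ x y : ℝ, 0 < x → 0 < y → Real.log x + Real.log y = Real.log (x * y) :=
    fun x y hx hy => (Real.log_mul hx.ne' hy.ne').symm
  have pa := hA.pos
  have pb := hB.pos
  have pc := hC.pos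
  rw [m δ _ hδ (pb 0), m _ _ (pa 1) (pc 0), m _ _ (pa 2) (pc 1), m _ _ (pa 0) (pc 2),
    m _ _ hδ (mul_pos (pa 0) (pc 2)), m _ _ (pa 1) (pc 1), m _ _ (pa 2) (pc 0)]
  refine ⟨⟨?_, ?_, ?_⟩, ?_, ?_, ?_⟩
  · exact Real.log_le_log (mul_pos hδ (pb 0)) (c0_ge hA hB hC e h)
  · exact Real.log_le_log (mul_pos (pa 2) (pc 1)) (c1_le hA hB hC e)
  · exact Real.log_le_log (mul_pos hδ (mul_pos (pa 0) (pc 2))) (c2_le hA hB hC e h)
  · exact Real.log_le_log (pb 2) (b2_le hA hB hC e)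
  · exact Real.log_le_log (mul_pos (pa 2) (pc 0)) (c0_le hA hB hC e)
  · exact Real.log_le_log (pb 2) (b2_le' hA hB hC e)

theorem lg {δ : ℝ} (hδ : 0 < δ) (hA : IsSVD A k1 a k2) (hB : IsSVD B l1 b l2)
    (dA : A.det ≠ 0) (dB : B.det ≠ 0) (dC : C.det ≠ 0) (e : B = A * C ∨ B = -(A * C))
    (h : An δ k1 l1) : Lg A B C (Real.log δ) := by
  have hC := isSVD dC
  have key : (Real.log δ + Real.log (b 0) ≤ Real.log (a 1) + Real.log (sv C 0) ∧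
    Real.log (a 2) + Real.log (sv C 1) ≤ Real.log (b 1) ∧
    Real.log δ + (Real.log (a 0) + Real.log (sv C 2)) ≤ Real.log (b 1)) ∧
    Real.log (b 2) ≤ Real.log (a 1) + Real.log (sv C 1) ∧
    Real.log (a 2) + Real.log (sv C 0) ≤ Real.log (b 0) ∧
    Real.log (b 2) ≤ Real.log (a 0) + Real.log (sv C 2) := by
    rcases e with e | e
    · exact lg_aux hδ hA hB hC e h
    · exact lg_aux hδ hA (svd_neg hB) hC (by rw [e, neg_neg]) h.neg
  obtain ⟨⟨j1, j2, j3⟩, j4, j5, j6⟩ := key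
  constructor <;> simp only [la_log0 hA dA, la_log1 hA dA, la_log2 hA dA, la_log0 hB dB,
    la_log1 hB dB, la_log2 hB dB, la_log0 hC dC, la_log1 hC dC, la_log2 hC dC] <;> assumption

end logs

/-- **Geometric separation** of disjoint closed sets of attracting points, near a wall. -/
theorem sepP {Γ : Type} [Group Γ] {m : Γ → Matrix (Fin 3) (Fin 3) ℝ} (hm : Emb m)
    {bp : Γ → ℙ ℝ (Fin 3 → ℝ)} (hbp : ∀ x, FLS (m x) (bp x)) {A A' : Set (ℙ ℝ (Fin 3 → ℝ))}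
    (hA : IsClosed A) (hA' : IsClosed A') (hd : Disjoint A A') :
    CL.SepP (fun x => gap 0 (m x)) (fun x => gap 1 (m x)) bp A A' := by
  classical
  obtain ⟨δ, hδ, hang⟩ := exists_an hA hA' hd
  intro R
  obtain ⟨d, hdd⟩ : ∃ d : ℝ, d = Real.log δ := ⟨_, rfl⟩
  obtain ⟨K, hK⟩ : ∃ K : ℝ, K = Real.exp (2 * (2 * |R| + 2 * |d|)) := ⟨_, rfl⟩
  have hK0 : 0 ≤ K := by rw [hK]; exact (Real.exp_pos _).le
  refine ⟨(hm.fin (3 * ((2 / δ ^ 2 + 1) * (K + K)))).toFinset, fun r =>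
    ⟨r + |R| + 2 * |d| + 1, ?_, ?_⟩⟩
  · intro x y hx hy tx ty rx ry
    obtain ⟨k, l, a, h1, hs1, e1⟩ := hbp x
    obtain ⟨k', l', a', h2, hs2, e2⟩ := hbp y
    rw [e1] at hx
    rw [e2] at hy
    have an := hang k k' h1 h2 hs1.o1 hs1.o1' hs2.o1 hs2.o1' hx hy
    have ee := hm.mul x (x⁻¹ * y)
    rw [mul_inv_cancel_left] at ee
    have L := lg hδ hs1 hs2 (hm.ne x) (hm.ne y) (hm.ne (x⁻¹ * y)) ee an
    rw [← hdd] at L
    have a1 := neg_abs_le d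
    have a2 := le_abs_self R
    simp only [gap0, gap1] at tx ty rx ry ⊢
    constructor
    · linarith [L.i1, L.i2]
    · linarith [L.i3, L.i4]
  · intro x₁ y₁ x₂ y₂ hx₁ hy₁ hx₂ hy₂ tx₁ ty₁ tx₂ ty₂ rx₁ ry₁ rx₂ ry₂ heq
    obtain ⟨k1, l1, a1, q1, s1, e1⟩ := hbp x₁
    obtain ⟨k2, l2, a2, q2, s2, e2⟩ := hbp y₁
    obtain ⟨k3, l3, a3, q3, s3, e3⟩ := hbp x₂
    obtain ⟨k4, l4, a4, q4, s4, e4⟩ := hbp y₂
    rw [e1] at hx₁
    rw [e2] at hy₁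
    rw [e3] at hx₂
    rw [e4] at hy₂
    have an1 := hang k1 k2 q1 q2 s1.o1 s1.o1' s2.o1 s2.o1' hx₁ hy₁
    have an2 := hang k3 k4 q3 q4 s3.o1 s3.o1' s4.o1 s4.o1' hx₂ hy₂
    have f1 := hm.mul x₁ (x₁⁻¹ * y₁)
    have f2 := hm.mul x₂ (x₂⁻¹ * y₂)
    rw [mul_inv_cancel_left] at f1 f2
    rw [← heq] at f2
    have L1 := lg hδ s1 s2 (hm.ne x₁) (hm.ne y₁) (hm.ne (x₁⁻¹ * y₁)) f1 an1
    have L2 := lg hδ s3 s4 (hm.ne x₂) (hm.ne y₂) (hm.ne (x₁⁻¹ * y₁)) f2 an2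
    rw [← hdd] at L1 L2
    have b1 := neg_abs_le d
    have b2 := le_abs_self R
    have z1 := sum3 (hm.abs_det x₁)
    have z2 := sum3 (hm.abs_det y₁)
    have z3 := sum3 (hm.abs_det x₂)
    have z4 := sum3 (hm.abs_det y₂)
    have n1 := gap_nonneg (hm.ne x₁) 1
    have n2 := gap_nonneg (hm.ne y₁) 1
    have n3 := gap_nonneg (hm.ne x₂) 1
    have n4 := gap_nonneg (hm.ne y₂) 1
    simp only [gap1] at rx₁ ry₁ rx₂ ry₂ n1 n2 n3 n4
    have w1 : la (m x₂) 1 - la (m x₁) 2 ≤ 2 * |R| + 2 * |d| := by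
      linarith [L1.i1, L1.i3, L1.i5, L1.i6, L2.i1, L2.i3, L2.i5, L2.i6]
    have w2 : la (m y₂) 1 - la (m y₁) 2 ≤ 2 * |R| + 2 * |d| := by
      linarith [L1.i1, L1.i3, L1.i5, L1.i6, L2.i1, L2.i3, L2.i5, L2.i6]
    have toK : ∀ {u v : ℝ}, 0 < u → 0 < v → Real.log u - Real.log v ≤ 2 * |R| + 2 * |d| →
        u ^ 2 ≤ K * v ^ 2 := by
      intro u v hu hv h
      have h1 : u ≤ Real.exp (2 * |R| + 2 * |d|) * v := by
        rw [← Real.log_le_log_iff hu (mul_pos (Real.exp_pos _) hv),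
          Real.log_mul (Real.exp_pos _).ne' hv.ne', Real.log_exp]
        linarith
      have h2 := pow_le_pow_left₀ hu.le h1 2
      rw [mul_pow, ← Real.exp_nat_mul] at h2
      rw [hK]
      exact_mod_cast h2
    have K1 : a3 1 ^ 2 ≤ K * a1 2 ^ 2 := by
      refine toK (s3.pos 1) (s1.pos 2) ?_
      rw [← la_log1 s3 (hm.ne x₂), ← la_log2 s1 (hm.ne x₁)]
      exact w1
    have K2 : a4 1 ^ 2 ≤ K * a2 2 ^ 2 := by
      refine toK (s4.pos 1) (s2.pos 2) ?_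
      rw [← la_log1 s4 (hm.ne y₂), ← la_log2 s2 (hm.ne y₁)]
      exact w2
    have ex : x₂ = x₂ * x₁⁻¹ * x₁ := by group
    have ey : y₂ = x₂ * x₁⁻¹ * y₁ := by
      rw [mul_assoc, heq]
      group
    have g1 := hm.mul (x₂ * x₁⁻¹) x₁
    have g2 := hm.mul (x₂ * x₁⁻¹) y₁
    rw [← ex] at g1
    rw [← ey] at g2
    rw [Set.Finite.mem_toFinset, Set.mem_ofPred_eq]
    rcases g1 with g1 | g1 <;> rcases g2 with g2 | g2
    · exact hs_E s1 s3 s2 s4 g1 g2 hδ an2 K1 K2 hK0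
    · exact hs_E s1 s3 s2 (svd_neg s4) g1 (by rw [g2, neg_neg]) hδ an2.neg K1 K2 hK0
    · exact hs_E s1 (svd_neg s3) s2 s4 (by rw [g1, neg_neg]) g2 hδ an2.neg' K1 K2 hK0
    · exact hs_E s1 (svd_neg s3) s2 (svd_neg s4) (by rw [g1, neg_neg]) (by rw [g2, neg_neg]) hδ
        an2.neg.neg' K1 K2 hK0

/-- A discrete subgroup of `SL_3(ℝ)`. -/
theorem emb_of {Γ : Type} [Group Γ] {q : Γ →* SpecialLinearGroup (Fin 3) ℝ}
    (fin : ∀ R : ℝ, {γ : Γ | hs (q γ).1 ≤ R}.Finite) : Emb fun γ => (q γ).1 :=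
  ⟨fun g h => Or.inl (by rw [map_mul]; rfl), fun g => by rw [(q g).2, one_pow], fin⟩

theorem sepQ {Γ : Type} [Group Γ] {q : Γ →* SpecialLinearGroup (Fin 3) ℝ}
    (fin : ∀ R : ℝ, {γ : Γ | hs (q γ).1 ≤ R}.Finite)
    {bp : Γ → ℙ ℝ (Fin 3 → ℝ)} (hbp : ∀ x, FLS (q x).1 (bp x)) {A A' : Set (ℙ ℝ (Fin 3 → ℝ))}
    (hA : IsClosed A) (hA' : IsClosed A') (hd : Disjoint A A') :
    CL.SepP (fun x => gap 0 (q x).1) (fun x => gap 1 (q x).1) bp A A' :=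
  sepP (emb_of fin) hbp hA hA' hd

end Vale.Agent.P092.H111
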